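import Vale.Agent.P181.GK.Defs
import Vale.Agent.P181.H530.Pad

set_option autoImplicit false

/-! P181, line GK, block PAD: two rows inside `n + 2` rows. -/

namespace Vale.Agent.P181.GK.H435

open Vale.Agent.P181.FR Vale.Agent.P181.H530 Vale.Agent.P181.H280

/-- **(PAD)** -/
theorem padPos : PadPos := by
  rintro B a n mu ⟨y, hy, hy0⟩
  have key : ∀ m, m = 2 + n → ∀ lam : Fin m → ℕ,
      (∀ i : Fin m, lam i = if h : (i : ℕ) < 2 then mu ⟨i, h⟩ else 0) → Pos B a m lam := by
    intro m hm lam hl
    subst hm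
    have e : lam = lam0 2 n mu := funext hl
    subst e
    exact ⟨padMap B a 2 n y, pad_mem hy, fun h => hy0 (pad_inj y h)⟩
  refine key (n + 2) (Nat.add_comm n 2) _ ?_
  intro i
  refine Fin.cases ?_ (fun j => ?_) i
  · simp [wt2]
  · refine Fin.cases ?_ (fun l => ?_) j
    · simp [wt2]
    · have h : ¬ ((l.succ.succ : Fin (n + 2)) : ℕ) < 2 := by
        simp only [Fin.val_succ]
        omega
      rw [dif_neg h]
      simp [wt2]

end Vale.Agent.P181.GK.H435
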